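import Mathlib

/-!
P022-X, row [VAL]: a valuation ring `O` of `ℂ` above `2` which induces on a subfield `σ(K)` the
norm of a second embedding `ι : K → E` into a `2`-adic field.
-/

namespace Vale.Agent.P022.H547

section

variable {K : Type*} [Field K] {E : Type*} [NormedField E] [IsUltrametricDist E]

/-- the subring `{x : ‖ι x‖ ≤ 1}` of `K` -/
def ballK (ι : K →+* E) : Subring K where
  carrier := {x | ‖ι x‖ ≤ 1}
  mul_mem' {x y} hx hy := by
    simp only [Set.mem_ofPred_eq, map_mul, norm_mul] at *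
    exact mul_le_one₀ hx (norm_nonneg _) hy
  one_mem' := by simp
  add_mem' {x y} hx hy := by
    simp only [Set.mem_ofPred_eq, map_add] at *
    exact (IsUltrametricDist.norm_add_le_max _ _).trans (max_le hx hy)
  zero_mem' := by simp
  neg_mem' {x} hx := by simpa using hx

/-- **[VAL], general form.** -/
theorem exists_val (σ : K →+* ℂ) (ι : K →+* E) :
    ∃ O : ValuationSubring ℂ, (∀ x : K, σ x ∈ O ↔ ‖ι x‖ ≤ 1) ∧
      (∀ x : K, σ x ∈ O.nonunits ↔ ‖ι x‖ < 1) := by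
  classical
  let A : Subring ℂ := (ballK ι).map σ
  let I : Ideal A :=
    { carrier := {a | ∃ x : K, σ x = a.1 ∧ ‖ι x‖ < 1}
      add_mem' := by
        rintro a b ⟨x, hx, hx1⟩ ⟨y, hy, hy1⟩
        refine ⟨x + y, by simp [hx, hy], ?_⟩
        rw [map_add]
        exact (IsUltrametricDist.norm_add_le_max _ _).trans_lt (max_lt hx1 hy1)
      zero_mem' := ⟨0, by simp, by simp⟩
      smul_mem' := by
        rintro ⟨c, z, hz, rfl⟩ a ⟨x, hx, hx1⟩
        refine ⟨z * x, by simp [hx], ?_⟩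
        rw [map_mul, norm_mul]
        have hz' : ‖ι z‖ ≤ 1 := hz
        nlinarith [norm_nonneg (ι z), norm_nonneg (ι x)] }
  have hI : I ≠ ⊤ := by
    intro h
    have h1 : (1 : A) ∈ I := by rw [h]; trivial
    obtain ⟨x, hx, hx1⟩ := h1
    have : x = 1 := σ.injective (by simpa using hx)
    subst this
    simp at hx1
  obtain ⟨O, hA, hO⟩ := Ideal.image_subset_nonunits_valuationSubring I hI
  have h1 : ∀ x : K, ‖ι x‖ ≤ 1 → σ x ∈ O := fun x hx => hA ⟨x, hx, rfl⟩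
  have h2 : ∀ x : K, ‖ι x‖ < 1 → σ x ∈ O.nonunits := fun x hx =>
    hO ⟨⟨σ x, x, hx.le, rfl⟩, ⟨x, rfl, hx⟩, rfl⟩
  have h3 : ∀ x : K, σ x ∈ O → ‖ι x‖ ≤ 1 := by
    intro x hx
    by_contra hlt
    push Not at hlt
    have hx0 : x ≠ 0 := by
      rintro rfl
      simp at hlt
      linarith
    have h4 := h2 x⁻¹ (by rw [map_inv₀, norm_inv]; exact inv_lt_one_of_one_lt₀ hlt)
    rw [map_inv₀, O.inv_mem_nonunits_iff] at h4
    rcases h4 with h4 | h4
    · exact hx0 (by simpa using h4)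
    · exact h4 hx
  refine ⟨O, fun x => ⟨h3 x, h1 x⟩, fun x => ⟨fun hx => ?_, h2 x⟩⟩
  by_contra hlt
  push Not at hlt
  have hx0 : x ≠ 0 := by
    rintro rfl
    simp at hlt
    linarith
  have h4 : σ x⁻¹ ∈ O := h1 _ (by rw [map_inv₀, norm_inv]; exact inv_le_one_of_one_le₀ hlt)
  have h5 : (σ x⁻¹)⁻¹ ∈ O.nonunits := by rwa [map_inv₀, inv_inv]
  rw [O.inv_mem_nonunits_iff] at h5
  rcases h5 with h5 | h5
  · exact hx0 (by simpa using h5)
  · exact h5 h4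

end

/-- a valuation subring contains the algebraic integers -/
theorem mem_of_isIntegral (O : ValuationSubring ℂ) {z : ℂ} (hz : IsIntegral ℤ z) : z ∈ O := by
  have h1 : IsIntegral O z := hz.tower_top
  obtain ⟨y, hy⟩ := (IsIntegrallyClosed.isIntegral_iff (R := O) (K := ℂ)).1 h1
  rw [← hy]
  exact y.2

section

variable {K : Type*} [Field K] {E : Type*} [NontriviallyNormedField E] [NormedAlgebra ℚ_[2] E]
  [IsUltrametricDist E]

omit [IsUltrametricDist E] in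
theorem norm_two : ‖(2 : E)‖ = (2 : ℝ)⁻¹ := by
  have h : (2 : E) = algebraMap ℚ_[2] E 2 := (map_ofNat _ 2).symm
  rw [h, norm_algebraMap']
  simpa using Padic.norm_p (p := 2)

omit [IsUltrametricDist E] in
theorem norm_odd {n : ℤ} (hn : Odd n) : ‖(n : E)‖ = 1 := by
  have h : (n : E) = algebraMap ℚ_[2] E n := (map_intCast _ n).symm
  rw [h, norm_algebraMap', Padic.norm_intCast_eq_one_iff]
  exact Int.isCoprime_iff_gcd_eq_one.2 (by
    have := Int.isCoprime_iff_gcd_eq_one.1 ((Int.isCoprime_two_right).2 hn)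
    simpa using this)

omit [IsUltrametricDist E] in
theorem norm_int_le (n : ℤ) : ‖(n : E)‖ ≤ 1 := by
  have h : (n : E) = algebraMap ℚ_[2] E n := (map_intCast _ n).symm
  rw [h, norm_algebraMap']
  exact Padic.norm_int_le_one n

/-- **[VAL].** Let `σ : K → ℂ` and `ι : K → E` be embeddings of a field, `E` an ultrametric normed
field over `ℚ₂`. There is a valuation ring `O` of `ℂ` such that
* `σ x ∈ 2 ^ n O` if and only if `‖ι x‖ ≤ 2 ^ (-n)`, and the same for `2 ^ (-n) O`;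
* `O` contains the algebraic integers and the inverses of the odd integers, but not `1 / 2`;
* every algebraic number lies in `2 ^ (-B) O` for some `B`. -/
theorem val (σ : K →+* ℂ) (ι : K →+* E) :
    ∃ O : ValuationSubring ℂ,
      (∀ (x : K) (n : ℕ), (∃ y ∈ O, σ x = 2 ^ n * y) ↔ ‖ι x‖ ≤ (2 : ℝ)⁻¹ ^ n) ∧
      (∀ (x : K) (n : ℕ), 2 ^ n * σ x ∈ O ↔ ‖ι x‖ ≤ (2 : ℝ) ^ n) ∧
      (∀ x : K, σ x ∈ O ↔ ‖ι x‖ ≤ 1) ∧
      (∀ z : ℂ, IsIntegral ℤ z → z ∈ O) ∧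
      (∀ n : ℤ, Odd n → (n : ℂ)⁻¹ ∈ O) ∧
      (∀ n : ℕ, Odd n → (n : ℂ)⁻¹ ∈ O) ∧
      (2 : ℂ)⁻¹ ∉ O ∧
      (∀ z : ℂ, IsAlgebraic ℤ z → ∃ B : ℕ, 2 ^ B * z ∈ O) := by
  obtain ⟨O, hO, hO'⟩ := exists_val σ ι
  have hι2 : ‖ι 2‖ = (2 : ℝ)⁻¹ := by rw [map_ofNat]; exact norm_two
  have h2 : (2 : K) ≠ 0 := by
    intro h
    rw [h, map_zero, norm_zero] at hι2
    norm_num at hι2
  have hodd : ∀ n : ℤ, Odd n → (n : ℂ)⁻¹ ∈ O := by
    intro n hn
    have h1 : σ ((n : K)⁻¹) = (n : ℂ)⁻¹ := by rw [map_inv₀, map_intCast]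
    rw [← h1, hO, map_inv₀, map_intCast, norm_inv, norm_odd hn, inv_one]
  refine ⟨O, fun x n => ?_, fun x n => ?_, hO, fun z hz => mem_of_isIntegral O hz, hodd,
    fun n hn => ?_, ?_, fun z hz => ?_⟩
  · have h1 : (∃ y ∈ O, σ x = 2 ^ n * y) ↔ σ (x / 2 ^ n) ∈ O := by
      have h3 : σ (x / 2 ^ n) = σ x / 2 ^ n := by rw [map_div₀, map_pow, map_ofNat]
      rw [h3]
      constructor
      · rintro ⟨y, hy, h⟩
        rw [h, mul_div_cancel_left₀ _ (pow_ne_zero n two_ne_zero)]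
        exact hy
      · intro h
        exact ⟨_, h, by field_simp⟩
    rw [h1, hO, map_div₀, map_pow, norm_div, norm_pow, hι2, div_le_one (by positivity)]
  · have h3 : 2 ^ n * σ x = σ (2 ^ n * x) := by rw [map_mul, map_pow, map_ofNat]
    rw [h3, hO, map_mul, map_pow, norm_mul, norm_pow, hι2, inv_pow, inv_mul_le_iff₀ (by positivity),
      mul_one]
  · have := hodd n (by exact_mod_cast hn)
    simpa using this
  · have h1 : σ ((2 : K)⁻¹) = (2 : ℂ)⁻¹ := by rw [map_inv₀, map_ofNat]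
    rw [← h1, hO, map_inv₀, norm_inv, hι2]
    norm_num
  · obtain ⟨y, hy0, hy⟩ := hz.exists_integral_multiple
    obtain ⟨B, m, hm, hBm⟩ : ∃ (B : ℕ) (m : ℤ), Odd m ∧ y = 2 ^ B * m := by
      obtain ⟨c, hc, h⟩ := (Int.finiteMultiplicity_iff.2
        ⟨by norm_num, hy0⟩ : FiniteMultiplicity (2 : ℤ) y).exists_eq_pow_mul_and_not_dvd
      exact ⟨_, c, by rwa [← Int.not_even_iff_odd, even_iff_two_dvd], hc⟩
    refine ⟨B, ?_⟩
    have h1 := mem_of_isIntegral O hy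
    have hm0 : (m : ℂ) ≠ 0 := by
      intro h
      have : m = 0 := by exact_mod_cast h
      subst this
      simp at hm
    have h3 : 2 ^ B * z = (m : ℂ)⁻¹ * (y • z) := by
      rw [zsmul_eq_mul, hBm]
      push_cast
      field_simp
    rw [h3]
    exact O.mul_mem _ _ (hodd m hm) h1

/-- the same with a subring `O` (letters of [EXP] and [THX]) -/
theorem val' (σ : K →+* ℂ) (ι : K →+* E) :
    ∃ O : Subring ℂ,
      (∀ (x : K) (n : ℕ), (∃ y ∈ O, σ x = 2 ^ n * y) ↔ ‖ι x‖ ≤ (2 : ℝ)⁻¹ ^ n) ∧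
      (∀ (x : K) (n : ℕ), 2 ^ n * σ x ∈ O ↔ ‖ι x‖ ≤ (2 : ℝ) ^ n) ∧
      (∀ x : K, σ x ∈ O ↔ ‖ι x‖ ≤ 1) ∧
      (∀ z : ℂ, IsIntegral ℤ z → z ∈ O) ∧
      (∀ n : ℤ, Odd n → (n : ℂ)⁻¹ ∈ O) ∧
      (∀ n : ℕ, Odd n → (n : ℂ)⁻¹ ∈ O) ∧
      (2 : ℂ)⁻¹ ∉ O ∧
      (∀ z : ℂ, IsAlgebraic ℤ z → ∃ B : ℕ, 2 ^ B * z ∈ O) := by
  obtain ⟨O, h⟩ := val σ ι
  exact ⟨O.toSubring, h⟩

end

end Vale.Agent.P022.H547
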